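import Claimed.Agent.R282.K2.C.Defs

/-!
# Row 282, K2, package C: `KP n d` is finite (no sorry)
-/

set_option autoImplicit false

namespace Claimed.Agent.R282

theorem PRD.dim_sum_pos {n : ℕ} (β : PRD n) : 0 < ∑ i, β.dim i := by
  obtain ⟨⟨sg, a, b⟩, hab⟩ := β
  have hab' : (a : ℕ) < b := hab
  cases sg with
  | true =>
    have hn : n - 1 < n := by have := a.2; omega
    have h1 : PRD.dim (⟨(true, a, b), hab⟩ : PRD n) ⟨n - 1, hn⟩ = 1 := by
      have : n - 1 + 1 = n := by omega
      simp [PRD.dim, this]
    have := Finset.single_le_sum (f := PRD.dim (⟨(true, a, b), hab⟩ : PRD n))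
      (fun i _ => Nat.zero_le _) (Finset.mem_univ (⟨n - 1, hn⟩ : Fin n))
    omega
  | false =>
    have h1 : PRD.dim (⟨(false, a, b), hab⟩ : PRD n) a = 1 := by
      simp [PRD.dim, hab']
    have := Finset.single_le_sum (f := PRD.dim (⟨(false, a, b), hab⟩ : PRD n))
      (fun i _ => Nat.zero_le _) (Finset.mem_univ a)
    omega

theorem k2c_card_le {n : ℕ} (s : Multiset (PRD n)) :
    Multiset.card s ≤ ∑ i, (s.map PRD.dim).sum i := by
  induction s using Multiset.induction_on with
  | empty => simp
  | cons β s ih =>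
    rw [Multiset.map_cons, Multiset.sum_cons, Multiset.card_cons]
    simp only [Pi.add_apply, Finset.sum_add_distrib]
    have := β.dim_sum_pos
    omega

instance k2c_finite_KP (n : ℕ) (d : Fin n → ℕ) : Finite (KP n d) := by
  have hfin : {s : Multiset (PRD n) | Multiset.card s ≤ ∑ i, d i}.Finite := by
    refine ((List.finite_length_le (PRD n) (∑ i, d i)).image
      (fun l : List (PRD n) => (Multiset.ofList l : Multiset (PRD n)))).subset ?_
    intro s hs
    exact ⟨s.toList, by simpa using hs, by simp⟩
  have : Finite {s : Multiset (PRD n) | Multiset.card s ≤ ∑ i, d i} := hfin.to_subtype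
  refine Finite.of_injective (β := {s : Multiset (PRD n) | Multiset.card s ≤ ∑ i, d i})
    (fun s : KP n d => ⟨s.1, ?_⟩) ?_
  · have := k2c_card_le s.1
    rw [s.2] at this
    exact this
  · intro s t h
    have h' : s.1 = t.1 := congrArg (fun z : {s : Multiset (PRD n) | Multiset.card s ≤ ∑ i, d i} => z.1) h
    exact Subtype.ext h'

noncomputable instance k2c_fintype_KP (n : ℕ) (d : Fin n → ℕ) : Fintype (KP n d) := Fintype.ofFinite _

end Claimed.Agent.R282
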