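import Claimed.Agent.R282.K2.Iface

/-!
# Row 282, layer K2, package C (Serre ⇒ PBW spanning): DEFINITIONS (helper56).  No sorry here.

Shared with the packages B, D, E:
* `PRD n`      : the positive roots of `D_n`; `(false, a, b) = e_a - e_b`, `(true, a, b) = e_a + e_b`, `a < b`.
* `PRD.dim β`  : the coordinates of `β` in the simple roots (`K2/Iface.lean` numbering) = dimension vector.
* `KP n d`     : the Kostant partitions of `d` = multisets of positive roots with sum `d`  (a `Fintype`).
* `serreSpan`  : the two sided Serre ideal of the free algebra (as in `dqIdeal`).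
* `pbwMon R n s` : the PBW monomial of a multiset `s` in the free algebra (product of root vectors, the
                 order is `Multiset.toList`: ANY order is as good as any other).

Lie ring part (any Lie ring `L`; generators are indexed by `ℕ`, only the indices `< N` matter):
* `k2cE x a b` (`a < b`) `= [[..[x_a, x_(a+1)], ..], x_(b-1)]`        (model: the matrix unit `e_ab`)
* `K2cChain x N` : `x_0 .. x_(N-1)` satisfy the Serre relations of type `A_N`
* `K2cSysD f g N`: `f_0 .. f_(N-1)` and `f_0 .. f_(N-2), g` are chains and `[f_(N-1), g] = 0`  (type `D_(N+1)`)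
* `k2cLam f g N a b` (`a < b ≤ N`)                                       (model: `e_a ∧ e_b`)
-/

set_option autoImplicit false

namespace Claimed.Agent.R282

/-! ## positive roots, Kostant partitions -/

/-- positive roots of `D_n` -/
def PRD (n : ℕ) : Type := {p : Bool × Fin n × Fin n // p.2.1 < p.2.2}

instance (n : ℕ) : Fintype (PRD n) := by unfold PRD; infer_instance
instance (n : ℕ) : DecidableEq (PRD n) := by unfold PRD; infer_instance

/-- coordinates in the simple roots -/
def PRD.dim {n : ℕ} (β : PRD n) : Fin n → ℕ := fun i =>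
  if β.1.1 then
    (if (i : ℕ) + 1 = n then 1
     else (if (β.1.2.1 : ℕ) ≤ i ∧ (i : ℕ) + 2 < n then 1 else 0) + (if (β.1.2.2 : ℕ) ≤ i then 1 else 0))
  else (if (β.1.2.1 : ℕ) ≤ i ∧ (i : ℕ) < β.1.2.2 then 1 else 0)

/-- Kostant partitions of `d` -/
def KP (n : ℕ) (d : Fin n → ℕ) : Type := {s : Multiset (PRD n) // (s.map PRD.dim).sum = d}

/-! ## Lie ring part -/

section Lie

variable {L : Type*} [LieRing L]

/-- `k2cCh x a k = [[..[x_a, x_(a+1)], ..], x_(a+k)]` -/
def k2cCh (x : ℕ → L) (a : ℕ) : ℕ → L
  | 0 => x a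
  | k + 1 => ⁅k2cCh x a k, x (a + k + 1)⁆

/-- the root vector `e_ab` of a chain (`a < b`) -/
def k2cE (x : ℕ → L) (a b : ℕ) : L := k2cCh x a (b - a - 1)

/-- Serre relations of type `A_N` for `x_0 .. x_(N-1)` -/
structure K2cChain (x : ℕ → L) (N : ℕ) : Prop where
  far : ∀ i j, i + 1 < j → j < N → ⁅x i, x j⁆ = 0
  up : ∀ i, i + 1 < N → ⁅x i, ⁅x i, x (i + 1)⁆⁆ = 0
  down : ∀ i, i + 1 < N → ⁅x (i + 1), ⁅x (i + 1), x i⁆⁆ = 0

/-- Serre relations of type `D_(N+1)` for `f_0 .. f_(N-1), g` -/
structure K2cSysD (f : ℕ → L) (g : L) (N : ℕ) : Prop where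
  chain : K2cChain f N
  chain' : K2cChain (Function.update f (N - 1) g) N
  comm : ⁅f (N - 1), g⁆ = 0

/-- the root vector `e_a ∧ e_b` (`a < b ≤ N`) -/
def k2cLam (f : ℕ → L) (g : L) (N a b : ℕ) : L :=
  if b = N then k2cE (Function.update f (N - 1) g) a N
  else ⁅k2cE f b N, k2cE (Function.update f (N - 1) g) a N⁆

/-- extension of a family on `Fin n` by zero -/
def k2cExt {n : ℕ} (f : Fin n → L) : ℕ → L := fun i => if h : i < n then f ⟨i, h⟩ else 0

/-- the root vector of `β` built from generators `f_0 .. f_(n-1)` -/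
def k2cRootVec {n : ℕ} (f : Fin n → L) (β : PRD n) : L :=
  if β.1.1 then k2cLam (k2cExt f) (k2cExt f (n - 1)) (n - 1) β.1.2.1 β.1.2.2
  else k2cE (k2cExt f) β.1.2.1 β.1.2.2

/-- the Serre relations of type `D_n` in a Lie ring -/
def K2cSerre {n : ℕ} (f : Fin n → L) : Prop :=
  ∀ i j, if adjD n i j then ⁅f i, ⁅f i, f j⁆⁆ = 0 else ⁅f i, f j⁆ = 0

end Lie

/-! ## associative part

In this Mathlib the commutator Lie ring structure of a ring is NOT a global instance: every file that speaks
about brackets in a ring needs the next line. -/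

attribute [local instance] LieRing.ofAssociativeRing

/-- the PBW monomial of a multiset of positive roots in a ring -/
noncomputable def k2cMon {A : Type*} [Ring A] {n : ℕ} (f : Fin n → A) (s : Multiset (PRD n)) : A :=
  (s.toList.map (k2cRootVec f)).prod

/-- the two sided Serre ideal (as an `R`-submodule) -/
noncomputable def serreSpan (R : Type) [CommRing R] (n : ℕ) : Submodule R (FreeAlgebra R (Fin n)) :=
  Submodule.span R {x | ∃ u v i j, x = u * serreElt R n i j * v}

/-- the PBW monomial in the free algebra -/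
noncomputable def pbwMon (R : Type) [CommRing R] (n : ℕ) (s : Multiset (PRD n)) :
    FreeAlgebra R (Fin n) := k2cMon (fgen R n) s

end Claimed.Agent.R282
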