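import Mathlib

/-!
# Row 282, K2, package C, leaf L-K2C-P: the abstract PBW spanning lemma (no Lie theory, no roots)

`A` an `R`-algebra, `F : ι → A`, `deg : ι → Γ` with `F β F γ - F γ F β ∈ span {F δ : deg δ = deg β + deg γ}`.
Then every product `F_(l_1) ⋯ F_(l_m)` is in the span of the products over `s.toList`, `s` a multiset of the same degree.

PLAN.  `T m e := span {(l'.map F).prod : l'.length < m, (l'.map deg).sum = e}`.
 (1) `k2c_perm`: `l ~ l'` ⇒ `(l.map F).prod - (l'.map F).prod ∈ T l.length (l.map deg).sum`.   Induction on `List.Perm`: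
     nil: 0.  cons x: `F x * (..)`; left multiplication by `F x` maps `T m e` into `T (m+1) (deg x + e)` (`Submodule.span_induction`
     or `Submodule.map_span` with `LinearMap.mulLeft`).  swap x y: `(F y F x - F x F y) * prod l`; right multiplication by `prod l`
     maps `F δ` to the product of `δ :: l` (length `l.length + 1 < l.length + 2`, degree `deg y + deg x + ..`).
     trans: add (`Perm.length_eq`, `Perm.map`, `Perm.sum_eq`).
 (2) strong induction on `l.length`: `l ~ (↑l : Multiset ι).toList` (`Multiset.coe_toList`, `Multiset.coe_eq_coe`),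
     `prod l = prod (toList) + (element of T)`, and `T l.length e ≤ target e` by the induction hypothesis (`Submodule.span_le`).
-/

set_option autoImplicit false

namespace Claimed.Agent.R282

theorem k2c_perm {R A ι Γ : Type*} [CommRing R] [Ring A] [Algebra R A] [AddCommMonoid Γ]
    (F : ι → A) (deg : ι → Γ)
    (hbr : ∀ β γ, F β * F γ - F γ * F β ∈
      Submodule.span R {x | ∃ δ, deg δ = deg β + deg γ ∧ x = F δ})
    {l l' : List ι} (h : l.Perm l') :
    (l.map F).prod - (l'.map F).prod ∈ Submodule.span R
      {x | ∃ l'' : List ι, l''.length < l.length ∧ (l''.map deg).sum = (l.map deg).sum ∧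
        x = (l''.map F).prod} := by
  induction h with
  | nil => simp
  | @cons x l₁ l₂ h ih =>
    have e : ((x :: l₁).map F).prod - ((x :: l₂).map F).prod
        = F x * ((l₁.map F).prod - (l₂.map F).prod) := by
      simp only [List.map_cons, List.prod_cons, mul_sub]
    rw [e]
    refine Submodule.span_induction (p := fun y _ => F x * y ∈ Submodule.span R
      {z | ∃ l'' : List ι, l''.length < (x :: l₁).length ∧
        (l''.map deg).sum = ((x :: l₁).map deg).sum ∧ z = (l''.map F).prod}) ?_ ?_ ?_ ?_ ih
    · rintro y ⟨l'', h1, h2, rfl⟩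
      exact Submodule.subset_span ⟨x :: l'', by simpa using h1, by simp [h2], by simp⟩
    · simp
    · intro a b _ _ ha hb
      rw [mul_add]
      exact Submodule.add_mem _ ha hb
    · intro c a _ ha
      rw [mul_smul_comm]
      exact Submodule.smul_mem _ c ha
  | swap x y l =>
    have e : ((y :: x :: l).map F).prod - ((x :: y :: l).map F).prod
        = (F y * F x - F x * F y) * (l.map F).prod := by
      simp only [List.map_cons, List.prod_cons, sub_mul, mul_assoc]
    rw [e]
    refine Submodule.span_induction (p := fun z _ => z * (l.map F).prod ∈ Submodule.span R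
      {z | ∃ l'' : List ι, l''.length < (y :: x :: l).length ∧
        (l''.map deg).sum = ((y :: x :: l).map deg).sum ∧ z = (l''.map F).prod}) ?_ ?_ ?_ ?_
      (hbr y x)
    · rintro z ⟨δ, h1, rfl⟩
      exact Submodule.subset_span ⟨δ :: l, by simp, by simp [h1, add_assoc], by simp⟩
    · simp
    · intro a b _ _ ha hb
      rw [add_mul]
      exact Submodule.add_mem _ ha hb
    · intro c a _ ha
      rw [smul_mul_assoc]
      exact Submodule.smul_mem _ c ha
  | @trans l₁ l₂ l₃ h₁ h₂ ih₁ ih₂ =>
    have e : (l₁.map F).prod - (l₃.map F).prod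
        = ((l₁.map F).prod - (l₂.map F).prod) + ((l₂.map F).prod - (l₃.map F).prod) := by abel
    rw [e]
    rw [← h₁.length_eq, ← (h₁.map deg).sum_eq] at ih₂
    exact Submodule.add_mem _ ih₁ ih₂

theorem k2c_pbw {R A ι Γ : Type*} [CommRing R] [Ring A] [Algebra R A] [AddCommMonoid Γ]
    (F : ι → A) (deg : ι → Γ)
    (hbr : ∀ β γ, F β * F γ - F γ * F β ∈
      Submodule.span R {x | ∃ δ, deg δ = deg β + deg γ ∧ x = F δ})
    (l : List ι) :
    (l.map F).prod ∈ Submodule.span R
      {x | ∃ s : Multiset ι, (s.map deg).sum = (l.map deg).sum ∧ x = (s.toList.map F).prod} := by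
  induction hn : l.length using Nat.strong_induction_on generalizing l with
  | _ n ih =>
    have hperm : l.Perm (l : Multiset ι).toList := by
      rw [← Multiset.coe_eq_coe, Multiset.coe_toList]
    have h1 := k2c_perm (R := R) F deg hbr hperm
    have h2 : (((l : Multiset ι).toList).map F).prod ∈ Submodule.span R
        {x | ∃ s : Multiset ι, (s.map deg).sum = (l.map deg).sum ∧ x = (s.toList.map F).prod} :=
      Submodule.subset_span ⟨(l : Multiset ι), by simp, rfl⟩
    have h3 : Submodule.span R
        {x | ∃ l'' : List ι, l''.length < l.length ∧ (l''.map deg).sum = (l.map deg).sum ∧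
          x = (l''.map F).prod} ≤ Submodule.span R
        {x | ∃ s : Multiset ι, (s.map deg).sum = (l.map deg).sum ∧ x = (s.toList.map F).prod} := by
      refine Submodule.span_le.2 ?_
      rintro x ⟨l'', hl, hd, rfl⟩
      have := ih l''.length (hn ▸ hl) l'' rfl
      rwa [hd] at this
    have e : (l.map F).prod
        = ((l.map F).prod - (((l : Multiset ι).toList).map F).prod)
          + (((l : Multiset ι).toList).map F).prod := (sub_add_cancel _ _).symm
    rw [e]
    exact Submodule.add_mem _ (h3 h1) h2

end Claimed.Agent.R282
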