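import Claimed.Agent.R282.K2.C.Roots
import Claimed.Agent.R282.K2.C.Pbw
import Claimed.Agent.R282.K2.C.Fin

/-!
# Row 282, K2, package C: GLUE and the output contract `k2c_span`  (no sorry of its own)

* `k2c_bracket`  : in ANY Lie ring without 2-torsion the root vectors built from generators with the Serre relations
                   of type `D_n` span a graded Lie subring (from the leaves `k2c_closure`, `k2c_rootVec_rec`).
* `k2c_span_alg` : in any `R`-algebra (`2` invertible) with such generators every word is in the span of the PBW monomials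
                   of the same degree.
* `k2c_span`     : the same in `FreeAlgebra / serreSpan` (transfer by the action on `F / serreSpan`).
* `Fintype (KP n d)` : `C/Fin.lean`.
-/

set_option autoImplicit false

namespace Claimed.Agent.R282

section Lie

variable {L : Type*} [LieRing L] {n : ℕ}

/-- the additive span of the root vectors of degree `e` -/
def k2cSp (f : Fin n → L) (e : Fin n → ℕ) : AddSubgroup L :=
  AddSubgroup.closure {x | ∃ δ : PRD n, δ.dim = e ∧ x = k2cRootVec f δ}

theorem k2c_rootVec_mem_sp (f : Fin n → L) (δ : PRD n) : k2cRootVec f δ ∈ k2cSp f δ.dim :=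
  AddSubgroup.subset_closure ⟨δ, rfl, rfl⟩

theorem k2c_gen_sp (h2 : ∀ z : L, z + z = 0 → z = 0) (hn : 2 ≤ n) {f : Fin n → L}
    (hf : K2cSerre f) (i : Fin n) (e : Fin n → ℕ) {x : L} (hx : x ∈ k2cSp f e) :
    ⁅f i, x⁆ ∈ k2cSp f (Pi.single i 1 + e) := by
  induction hx using AddSubgroup.closure_induction with
  | mem x hx =>
    obtain ⟨δ, rfl, rfl⟩ := hx
    rcases k2c_closure h2 hn hf i δ with h | ⟨γ, hγ, h | h⟩
    · rw [h]; exact zero_mem _
    · rw [h, ← hγ]; exact k2c_rootVec_mem_sp f γ
    · rw [h, ← hγ]; exact neg_mem (k2c_rootVec_mem_sp f γ)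
  | zero => rw [lie_zero]; exact zero_mem _
  | add x y _ _ hx hy => rw [lie_add]; exact add_mem hx hy
  | neg x _ hx => rw [lie_neg]; exact neg_mem hx

theorem k2c_bracket_sp (h2 : ∀ z : L, z + z = 0 → z = 0) (hn : 2 ≤ n) {f : Fin n → L}
    (hf : K2cSerre f) (β : PRD n) (e : Fin n → ℕ) {x : L} (hx : x ∈ k2cSp f e) :
    ⁅k2cRootVec f β, x⁆ ∈ k2cSp f (β.dim + e) := by
  induction hm : ∑ j, β.dim j using Nat.strong_induction_on generalizing β e x with
  | _ m ih =>
    rcases k2c_rootVec_rec h2 hn hf β with ⟨i, hd, hF⟩ | ⟨i, β', hd, hF⟩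
    · rw [hF, hd]; exact k2c_gen_sp h2 hn hf i e hx
    · have hlt : ∑ j, β'.dim j < m := by
        rw [← hm, hd]
        simp only [Pi.add_apply, Finset.sum_add_distrib]
        have : ∑ j, (Pi.single i 1 : Fin n → ℕ) j = 1 := by
          simp [Pi.single_apply]
        omega
      have key : ⁅⁅f i, k2cRootVec f β'⁆, x⁆ ∈ k2cSp f (β.dim + e) := by
        rw [lie_lie]
        refine sub_mem ?_ ?_
        · have := k2c_gen_sp h2 hn hf i _ (ih _ hlt β' e hx rfl)
          rwa [← add_assoc, ← hd] at this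
        · have := ih _ hlt β' _ (k2c_gen_sp h2 hn hf i e hx) rfl
          rwa [add_left_comm, ← add_assoc, ← hd] at this
      rcases hF with hF | hF
      · rw [hF]; exact key
      · rw [hF, neg_lie]; exact neg_mem key

/-- the root vectors span a graded Lie subring -/
theorem k2c_bracket (h2 : ∀ z : L, z + z = 0 → z = 0) (hn : 2 ≤ n) {f : Fin n → L}
    (hf : K2cSerre f) (β γ : PRD n) :
    ⁅k2cRootVec f β, k2cRootVec f γ⁆ ∈ k2cSp f (β.dim + γ.dim) :=
  k2c_bracket_sp h2 hn hf β _ (k2c_rootVec_mem_sp f γ)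

end Lie

section Assoc

attribute [local instance] LieRing.ofAssociativeRing

theorem k2c_no2 {R : Type*} [CommRing R] {A : Type*} [Ring A] [Algebra R A] (h2 : IsUnit (2 : R))
    (z : A) (h : z + z = 0) : z = 0 := by
  obtain ⟨u, hu⟩ := h2
  have h0 : (2 : R) • z = 0 := by rw [two_smul]; exact h
  calc z = ((↑u⁻¹ : R) * 2) • z := by rw [← hu]; simp
    _ = 0 := by rw [mul_smul, h0, smul_zero]

theorem k2c_sum_single {n : ℕ} (w : List (Fin n)) :
    (w.map (fun i => (Pi.single i 1 : Fin n → ℕ))).sum = fun i => w.count i := by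
  induction w with
  | nil => funext i; simp
  | cons a w ih =>
    funext i
    rw [List.map_cons, List.sum_cons, ih]
    by_cases h : a = i
    · subst h; simp [add_comm]
    · simp [h, Ne.symm h]

theorem k2c_span_alg {R : Type*} [CommRing R] {A : Type*} [Ring A] [Algebra R A] {n : ℕ}
    (h2 : IsUnit (2 : R)) (hn : 2 ≤ n) (f : Fin n → A) (hf : K2cSerre f) (w : List (Fin n)) :
    (w.map f).prod ∈
      Submodule.span R (Set.range fun s : KP n (fun i => w.count i) => k2cMon f s.1) := by
  choose σ hσd hσF using k2c_simple hn f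
  have hbr : ∀ β γ : PRD n, k2cRootVec f β * k2cRootVec f γ - k2cRootVec f γ * k2cRootVec f β ∈
      Submodule.span R {x | ∃ δ : PRD n, δ.dim = β.dim + γ.dim ∧ x = k2cRootVec f δ} := by
    intro β γ
    have h := k2c_bracket (k2c_no2 h2) hn hf β γ
    rw [Ring.lie_def] at h
    have hle : k2cSp f (β.dim + γ.dim) ≤ (Submodule.span R
        {x | ∃ δ : PRD n, δ.dim = β.dim + γ.dim ∧ x = k2cRootVec f δ}).toAddSubgroup := by
      unfold k2cSp
      rw [AddSubgroup.closure_le]
      exact Submodule.subset_span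
    exact hle h
  have h := k2c_pbw (R := R) (k2cRootVec f) PRD.dim hbr (w.map σ)
  have e1 : ((w.map σ).map (k2cRootVec f)) = w.map f := by
    rw [List.map_map]; congr 1; funext i; exact hσF i
  have e2 : ((w.map σ).map PRD.dim).sum = fun i => w.count i := by
    rw [List.map_map, ← k2c_sum_single]; congr 2; funext i; exact hσd i
  rw [e1, e2] at h
  refine Submodule.span_mono ?_ h
  rintro x ⟨s, hs, rfl⟩
  exact ⟨⟨s, hs⟩, rfl⟩

/-! ### naturality -/

theorem k2c_map_lie {A B : Type*} [Ring A] [Ring B] (φ : A →+* B) (x y : A) :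
    φ ⁅x, y⁆ = ⁅φ x, φ y⁆ := by
  simp [Ring.lie_def]

theorem k2c_map_ch {A B : Type*} [Ring A] [Ring B] (φ : A →+* B) (x : ℕ → A) (a k : ℕ) :
    φ (k2cCh x a k) = k2cCh (φ ∘ x) a k := by
  induction k with
  | zero => rfl
  | succ k ih => simp only [k2cCh, k2c_map_lie, ih, Function.comp]

theorem k2c_map_E {A B : Type*} [Ring A] [Ring B] (φ : A →+* B) (x : ℕ → A) (a b : ℕ) :
    φ (k2cE x a b) = k2cE (φ ∘ x) a b := k2c_map_ch φ x a _

theorem k2c_map_ext {A B : Type*} [Ring A] [Ring B] (φ : A →+* B) {n : ℕ} (f : Fin n → A) :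
    φ ∘ k2cExt f = k2cExt (φ ∘ f) := by
  funext i
  simp only [Function.comp, k2cExt]
  split_ifs <;> simp

theorem k2c_map_rootVec {A B : Type*} [Ring A] [Ring B] (φ : A →+* B) {n : ℕ} (f : Fin n → A)
    (β : PRD n) : φ (k2cRootVec f β) = k2cRootVec (φ ∘ f) β := by
  have hg : ∀ i, φ (k2cExt f i) = k2cExt (φ ∘ f) i := fun i => congrFun (k2c_map_ext φ f) i
  unfold k2cRootVec k2cLam
  split_ifs <;>
    simp only [k2c_map_lie, k2c_map_E, Function.comp_update, k2c_map_ext, hg]

theorem k2c_map_mon {A B : Type*} [Ring A] [Ring B] (φ : A →+* B) {n : ℕ} (f : Fin n → A)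
    (s : Multiset (PRD n)) : φ (k2cMon f s) = k2cMon (φ ∘ f) s := by
  unfold k2cMon
  rw [map_list_prod, List.map_map]
  congr 2
  funext β
  exact k2c_map_rootVec φ f β

end Assoc

section Transfer

attribute [local instance] LieRing.ofAssociativeRing

variable (R : Type) [CommRing R] (n : ℕ)

theorem k2c_serreSpan_mul_left (y : FreeAlgebra R (Fin n)) {x : FreeAlgebra R (Fin n)}
    (hx : x ∈ serreSpan R n) : y * x ∈ serreSpan R n := by
  unfold serreSpan at hx ⊢
  induction hx using Submodule.span_induction with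
  | mem x hx =>
    obtain ⟨u, v, i, j, rfl⟩ := hx
    exact Submodule.subset_span ⟨y * u, v, i, j, by simp only [mul_assoc]⟩
  | zero => rw [mul_zero]; exact zero_mem _
  | add a b _ _ ha hb => rw [mul_add]; exact add_mem ha hb
  | smul r a _ ha => rw [mul_smul_comm]; exact Submodule.smul_mem _ r ha

/-- left multiplication on `F / Serre` -/
noncomputable def k2cAct : FreeAlgebra R (Fin n) →ₐ[R]
    Module.End R (FreeAlgebra R (Fin n) ⧸ serreSpan R n) :=
  FreeAlgebra.lift R (fun i => (serreSpan R n).mapQ (serreSpan R n)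
    (LinearMap.mulLeft R (fgen R n i)) (fun _ hx => k2c_serreSpan_mul_left R n _ hx))

theorem k2cAct_mk (x y : FreeAlgebra R (Fin n)) :
    k2cAct R n x (Submodule.Quotient.mk y) = Submodule.Quotient.mk (x * y) := by
  induction x using FreeAlgebra.induction generalizing y with
  | grade0 r =>
    rw [AlgHom.commutes, Module.algebraMap_end_apply, ← Submodule.Quotient.mk_smul,
      Algebra.smul_def]
  | grade1 i =>
    simp only [k2cAct, FreeAlgebra.lift_ι_apply]
    rfl
  | mul a b ha hb => rw [map_mul, Module.End.mul_apply, hb, ha, mul_assoc]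
  | add a b ha hb => rw [map_add, LinearMap.add_apply, ha, hb, add_mul, Submodule.Quotient.mk_add]

theorem k2cAct_serre (i j : Fin n) : k2cAct R n (serreElt R n i j) = 0 := by
  apply LinearMap.ext
  intro z
  obtain ⟨y, rfl⟩ := Submodule.Quotient.mk_surjective _ z
  rw [k2cAct_mk, LinearMap.zero_apply, Submodule.Quotient.mk_eq_zero]
  exact Submodule.subset_span ⟨1, y, i, j, by rw [one_mul]⟩

theorem k2c_lie_lie_eq {A : Type*} [Ring A] (a b : A) :
    ⁅a, ⁅a, b⁆⁆ = a * a * b - 2 * (a * b * a) + b * a * a := by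
  simp only [Ring.lie_def]
  noncomm_ring

theorem k2cAct_isSerre : K2cSerre (⇑(k2cAct R n).toRingHom ∘ fgen R n) := by
  intro i j
  have h := k2cAct_serre R n i j
  unfold serreElt at h
  split_ifs with hij
  · rw [if_pos hij] at h
    simp only [map_add, map_sub, map_mul, map_ofNat] at h
    simp only [Function.comp, k2c_lie_lie_eq, AlgHom.toRingHom_eq_coe, RingHom.coe_coe]
    exact h
  · rw [if_neg hij] at h
    simp only [map_sub, map_mul] at h
    simp only [Function.comp, Ring.lie_def, AlgHom.toRingHom_eq_coe, RingHom.coe_coe]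
    exact h

/-- OUTPUT CONTRACT of package C (C2): the PBW monomials span `F / Serre` degree by degree. -/
theorem k2c_span (h2 : IsUnit (2 : R)) (hn : 2 ≤ n) (w : List (Fin n)) :
    wordMon R n w ∈ Submodule.span R (Set.range fun s : KP n (fun i => w.count i) => pbwMon R n s.1)
      ⊔ serreSpan R n := by
  have h := k2c_span_alg (R := R) h2 hn _ (k2cAct_isSerre R n) w
  -- evaluation at the class of `1`
  let ev : Module.End R (FreeAlgebra R (Fin n) ⧸ serreSpan R n) →ₗ[R]
      (FreeAlgebra R (Fin n) ⧸ serreSpan R n) := LinearMap.applyₗ (Submodule.Quotient.mk 1)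
  have hev : ∀ x, ev (k2cAct R n x) = (serreSpan R n).mkQ x := by
    intro x
    change k2cAct R n x (Submodule.Quotient.mk 1) = _
    rw [k2cAct_mk, mul_one]; rfl
  have h1 : (w.map (⇑(k2cAct R n).toRingHom ∘ fgen R n)).prod = k2cAct R n (wordMon R n w) := by
    unfold wordMon
    rw [map_list_prod, List.map_map]
    rfl
  rw [h1] at h
  have h3 := Submodule.mem_map_of_mem (f := ev) h
  rw [hev, Submodule.map_span] at h3
  have h4 : ev '' (Set.range fun s : KP n (fun i => w.count i) =>
      k2cMon (⇑(k2cAct R n).toRingHom ∘ fgen R n) s.1) =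
      (serreSpan R n).mkQ '' (Set.range fun s : KP n (fun i => w.count i) => pbwMon R n s.1) := by
    ext z
    constructor
    · rintro ⟨_, ⟨s, rfl⟩, rfl⟩
      refine ⟨_, ⟨s, rfl⟩, ?_⟩
      simp only [pbwMon]
      rw [← hev, ← k2c_map_mon]
      rfl
    · rintro ⟨_, ⟨s, rfl⟩, rfl⟩
      refine ⟨_, ⟨s, rfl⟩, ?_⟩
      simp only [pbwMon]
      rw [← hev, ← k2c_map_mon]
      rfl
  rw [h4, ← Submodule.map_span] at h3
  have h5 : wordMon R n w ∈ Submodule.comap (serreSpan R n).mkQ (Submodule.map (serreSpan R n).mkQ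
      (Submodule.span R (Set.range fun s : KP n (fun i => w.count i) => pbwMon R n s.1))) := h3
  rw [Submodule.comap_map_mkQ] at h5
  rwa [sup_comm]

end Transfer

end Claimed.Agent.R282
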