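import Claimed.Agent.R282.K2.C.TableD

/-!
# Row 282, K2, package C, leaf L-K2C-R: packaging of the tables over the index type `PRD n`

`f : Fin n → L`, `2 ≤ n`, `N = n - 1`, chain generators `f_0 .. f_(N-1)`, `g = f_(n-1)`; `F β := k2cRootVec f β`.
PLAN.
 `k2c_sysD_of_serre`: unfold `adjD` (all cases by `omega` after `simp [k2cExt, Function.update_apply]`):
   chain:  `i+1 < j < n-1` not adjacent; `(i, i+1)`, `i+1 < n-1` adjacent (1st/2nd disjunct).
   chain': the same with `n-2` replaced by `n-1`: `(i, n-1)` is adjacent iff `i + 3 = n` (3rd/4th disjunct).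
   comm:   `(n-2, n-1)` is not adjacent.
 `k2c_simple`: `i + 1 < n`: `β = (false, i, i+1)`, `k2cE_self_succ`;  `i = n-1`: `β = (true, n-2, n-1)`, `Λ(N-1,N) = x'_(N-1) = g`.
 `k2c_closure`: `i + 1 < n` (`c = i < N`): `β = (false,a,b)`: `k2c_genA` (`γ = (false,c,b)` sign +, or `(false,a,c+1)` sign -);
   `β = (true,a,b)`: `k2c_tableD1` (at most one of the two terms is nonzero: `c+1 = a` and `c+1 = b` exclude each other).
   `i = n-1`: `k2c_tableD3` (`γ = (true,a,N-1)` sign + or `(true,a,N)` sign -), `k2c_tableD2`.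
   The degree identities `γ.dim = Pi.single i 1 + β.dim`: `funext j; simp [PRD.dim, Pi.single_apply]; split_ifs <;> omega`
   (compare `Fin` values with `Fin.ext_iff`).
 `k2c_rootVec_rec`:  `E(a,b) = -[f_(b-1), E(a,b-1)]` (`b > a+1`, `k2cE_succ` + `lie_skew`);
   `Λ(a,N) = -[g, E(a,N-1)]` (`a < N-1`; `k2cE_succ` for `x'`, `k2cE_congr`);   `Λ(a,b) = [f_b, Λ(a,b+1)]` (`b < N`, `k2c_tableD1` with `c = b`).
-/

set_option autoImplicit false

namespace Claimed.Agent.R282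

variable {L : Type*} [LieRing L] {n : ℕ}

/-! ### auxiliary lemmas -/

theorem k2cR_ext_lt (f : Fin n → L) {i : ℕ} (h : i < n) : k2cExt f i = f ⟨i, h⟩ := dif_pos h

theorem k2cR_comm {f : Fin n → L} (hf : K2cSerre f) {i j : ℕ} (hi : i < n) (hj : j < n)
    (h : ¬ ((i + 1 = j ∧ j + 1 < n) ∨ (j + 1 = i ∧ i + 1 < n) ∨ (i + 3 = n ∧ j + 1 = n) ∨
      (j + 3 = n ∧ i + 1 = n))) : ⁅k2cExt f i, k2cExt f j⁆ = 0 := by
  have h1 := hf ⟨i, hi⟩ ⟨j, hj⟩
  have h3 : ¬ adjD n ⟨i, hi⟩ ⟨j, hj⟩ := h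
  rw [if_neg h3] at h1
  rw [k2cR_ext_lt f hi, k2cR_ext_lt f hj]
  exact h1

theorem k2cR_serre {f : Fin n → L} (hf : K2cSerre f) {i j : ℕ} (hi : i < n) (hj : j < n)
    (h : (i + 1 = j ∧ j + 1 < n) ∨ (j + 1 = i ∧ i + 1 < n) ∨ (i + 3 = n ∧ j + 1 = n) ∨
      (j + 3 = n ∧ i + 1 = n)) : ⁅k2cExt f i, ⁅k2cExt f i, k2cExt f j⁆⁆ = 0 := by
  have h1 := hf ⟨i, hi⟩ ⟨j, hj⟩
  have h3 : adjD n ⟨i, hi⟩ ⟨j, hj⟩ := h
  rw [if_pos h3] at h1
  rw [k2cR_ext_lt f hi, k2cR_ext_lt f hj]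
  exact h1

theorem k2cR_vecF (f : Fin n → L) {a b : ℕ} (ha : a < n) (hb : b < n)
    (h : (⟨a, ha⟩ : Fin n) < ⟨b, hb⟩) :
    k2cRootVec f ⟨(false, ⟨a, ha⟩, ⟨b, hb⟩), h⟩ = k2cE (k2cExt f) a b := rfl

theorem k2cR_vecT (f : Fin n → L) {a b : ℕ} (ha : a < n) (hb : b < n)
    (h : (⟨a, ha⟩ : Fin n) < ⟨b, hb⟩) :
    k2cRootVec f ⟨(true, ⟨a, ha⟩, ⟨b, hb⟩), h⟩
      = k2cLam (k2cExt f) (k2cExt f (n - 1)) (n - 1) a b := rfl

theorem k2cR_dimF {a b : ℕ} (ha : a < n) (hb : b < n) (h : (⟨a, ha⟩ : Fin n) < ⟨b, hb⟩)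
    (j : Fin n) : PRD.dim ⟨(false, ⟨a, ha⟩, ⟨b, hb⟩), h⟩ j
      = if a ≤ (j : ℕ) ∧ (j : ℕ) < b then 1 else 0 := rfl

theorem k2cR_dimT {a b : ℕ} (ha : a < n) (hb : b < n) (h : (⟨a, ha⟩ : Fin n) < ⟨b, hb⟩)
    (j : Fin n) : PRD.dim ⟨(true, ⟨a, ha⟩, ⟨b, hb⟩), h⟩ j
      = if (j : ℕ) + 1 = n then 1
        else (if a ≤ (j : ℕ) ∧ (j : ℕ) + 2 < n then 1 else 0) + (if b ≤ (j : ℕ) then 1 else 0) := rfl

theorem k2c_sysD_of_serre (hn : 2 ≤ n) {f : Fin n → L} (hf : K2cSerre f) :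
    K2cSysD (k2cExt f) (k2cExt f (n - 1)) (n - 1) := by
  obtain ⟨m, rfl⟩ : ∃ m, n = m + 2 := ⟨n - 2, by omega⟩
  have e1 : m + 2 - 1 = m + 1 := rfl
  rw [e1]
  refine ⟨⟨fun i j h1 h3 => ?_, fun i h1 => ?_, fun i h1 => ?_⟩,
    ⟨fun i j h1 h3 => ?_, fun i h1 => ?_, fun i h1 => ?_⟩, ?_⟩
  · exact k2cR_comm hf (by omega) (by omega) (by omega)
  · exact k2cR_serre hf (by omega) (by omega) (by omega)
  · exact k2cR_serre hf (by omega) (by omega) (by omega)
  · simp only [Nat.add_sub_cancel, Function.update_apply]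
    rw [if_neg (by omega : ¬ i = m)]
    split_ifs with h4
    · exact k2cR_comm hf (by omega) (by omega) (by omega)
    · exact k2cR_comm hf (by omega) (by omega) (by omega)
  · simp only [Nat.add_sub_cancel, Function.update_apply]
    rw [if_neg (by omega : ¬ i = m)]
    split_ifs with h4
    · exact k2cR_serre hf (by omega) (by omega) (by omega)
    · exact k2cR_serre hf (by omega) (by omega) (by omega)
  · simp only [Nat.add_sub_cancel, Function.update_apply]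
    rw [if_neg (by omega : ¬ i = m)]
    split_ifs with h4
    · exact k2cR_serre hf (by omega) (by omega) (by omega)
    · exact k2cR_serre hf (by omega) (by omega) (by omega)
  · simp only [Nat.add_sub_cancel]
    exact k2cR_comm hf (by omega) (by omega) (by omega)

/-- the generators are root vectors -/
theorem k2c_simple (hn : 2 ≤ n) (f : Fin n → L) (i : Fin n) :
    ∃ β : PRD n, β.dim = Pi.single i 1 ∧ k2cRootVec f β = f i := by
  obtain ⟨c, hc⟩ := i
  by_cases h : c + 1 < n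
  · refine ⟨⟨(false, ⟨c, hc⟩, ⟨c + 1, h⟩), Nat.lt_succ_self c⟩, ?_, ?_⟩
    · funext j
      simp only [k2cR_dimF, Pi.single_apply, Fin.ext_iff]
      split_ifs <;> omega
    · rw [k2cR_vecF, k2cE_self_succ, k2cR_ext_lt f hc]
  · obtain ⟨m, rfl⟩ : ∃ m, n = m + 2 := ⟨n - 2, by omega⟩
    have hcm : c = m + 1 := by omega
    subst hcm
    refine ⟨⟨(true, ⟨m, by omega⟩, ⟨m + 1, hc⟩), Nat.lt_succ_self m⟩, ?_, ?_⟩
    · funext j
      simp only [k2cR_dimT, Pi.single_apply, Fin.ext_iff]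
      split_ifs <;> omega
    · rw [k2cR_vecT]
      have e1 : m + 2 - 1 = m + 1 := rfl
      rw [e1, k2cD_lam_top, k2cD_E'_nn, k2cR_ext_lt f hc]

/-- C1: `[f_i, F_β] = 0` or `± F_γ` with `γ = β + α_i` -/
theorem k2c_closure (h2 : ∀ z : L, z + z = 0 → z = 0) (hn : 2 ≤ n) {f : Fin n → L}
    (hf : K2cSerre f) (i : Fin n) (β : PRD n) :
    ⁅f i, k2cRootVec f β⁆ = 0 ∨ ∃ γ : PRD n, γ.dim = Pi.single i 1 + β.dim ∧
      (⁅f i, k2cRootVec f β⁆ = k2cRootVec f γ ∨ ⁅f i, k2cRootVec f β⁆ = - k2cRootVec f γ) := by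
  have h := k2c_sysD_of_serre hn hf
  have hN : 1 ≤ n - 1 := by omega
  obtain ⟨c, hc⟩ := i
  obtain ⟨⟨t, ⟨a, ha⟩, ⟨b, hb⟩⟩, hab⟩ := β
  have hab' : a < b := hab
  rw [← k2cR_ext_lt f hc]
  by_cases hcn : c + 1 < n
  · cases t with
    | false =>
      rw [k2cR_vecF, k2c_genA h2 h.chain (by omega) hab' (by omega)]
      by_cases h1 : c + 1 = a
      · subst h1
        refine Or.inr ⟨⟨(false, ⟨c, hc⟩, ⟨b, hb⟩), (by omega : c < b)⟩, ?_, Or.inl ?_⟩
        · funext j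
          simp only [k2cR_dimF, Pi.add_apply, Pi.single_apply, Fin.ext_iff]
          split_ifs <;> omega
        · rw [if_pos rfl, if_neg (by omega), sub_zero, k2cR_vecF]
      · rw [if_neg h1, zero_sub]
        by_cases h3 : b = c
        · subst h3
          refine Or.inr ⟨⟨(false, ⟨a, ha⟩, ⟨b + 1, hcn⟩), (by omega : a < b + 1)⟩, ?_, Or.inr ?_⟩
          · funext j
            simp only [k2cR_dimF, Pi.add_apply, Pi.single_apply, Fin.ext_iff]
            split_ifs <;> omega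
          · rw [if_pos rfl, k2cR_vecF]
        · rw [if_neg h3, neg_zero]
          exact Or.inl rfl
    | true =>
      rw [k2cR_vecT, k2c_tableD1 h2 hN h (by omega) hab' (by omega)]
      by_cases h1 : c + 1 = a
      · subst h1
        refine Or.inr ⟨⟨(true, ⟨c, hc⟩, ⟨b, hb⟩), (by omega : c < b)⟩, ?_, Or.inl ?_⟩
        · funext j
          simp only [k2cR_dimT, Pi.add_apply, Pi.single_apply, Fin.ext_iff]
          split_ifs <;> omega
        · rw [if_pos rfl, if_neg (by omega), add_zero, k2cR_vecT]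
      · rw [if_neg h1, zero_add]
        by_cases h3 : c + 1 = b ∧ a < c
        · obtain ⟨rfl, h4⟩ := h3
          refine Or.inr ⟨⟨(true, ⟨a, ha⟩, ⟨c, hc⟩), h4⟩, ?_, Or.inl ?_⟩
          · funext j
            simp only [k2cR_dimT, Pi.add_apply, Pi.single_apply, Fin.ext_iff]
            split_ifs <;> omega
          · rw [if_pos ⟨rfl, h4⟩, k2cR_vecT]
        · rw [if_neg h3]
          exact Or.inl rfl
  · have hcn' : c = n - 1 := by omega
    subst hcn'
    cases t with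
    | false =>
      rw [k2cR_vecF, k2c_tableD3 h2 hN h hab' (by omega)]
      by_cases h1 : b = n - 1 ∧ a + 1 < n - 1
      · obtain ⟨rfl, h4⟩ := h1
        refine Or.inr ⟨⟨(true, ⟨a, ha⟩, ⟨n - 1 - 1, by omega⟩), (by omega : a < n - 1 - 1)⟩, ?_,
          Or.inl ?_⟩
        · funext j
          simp only [k2cR_dimT, k2cR_dimF, Pi.add_apply, Pi.single_apply, Fin.ext_iff]
          split_ifs <;> omega
        · rw [if_pos ⟨rfl, h4⟩, if_neg (by omega), sub_zero, k2cR_vecT]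
      · rw [if_neg h1, zero_sub]
        by_cases h3 : b + 1 = n - 1
        · refine Or.inr ⟨⟨(true, ⟨a, ha⟩, ⟨n - 1, hc⟩), (by omega : a < n - 1)⟩, ?_, Or.inr ?_⟩
          · funext j
            simp only [k2cR_dimT, k2cR_dimF, Pi.add_apply, Pi.single_apply, Fin.ext_iff]
            split_ifs <;> omega
          · rw [if_pos h3, k2cR_vecT]
        · rw [if_neg h3, neg_zero]
          exact Or.inl rfl
    | true =>
      rw [k2cR_vecT, k2c_tableD2 h2 hN h hab' (by omega)]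
      exact Or.inl rfl

/-- every root vector is a generator or `± [f_i, F_β']` -/
theorem k2c_rootVec_rec (h2 : ∀ z : L, z + z = 0 → z = 0) (hn : 2 ≤ n) {f : Fin n → L}
    (hf : K2cSerre f) (β : PRD n) :
    (∃ i, β.dim = Pi.single i 1 ∧ k2cRootVec f β = f i) ∨
    ∃ (i : Fin n) (β' : PRD n), β.dim = Pi.single i 1 + β'.dim ∧
      (k2cRootVec f β = ⁅f i, k2cRootVec f β'⁆ ∨ k2cRootVec f β = - ⁅f i, k2cRootVec f β'⁆) := by
  have h := k2c_sysD_of_serre hn hf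
  have hN : 1 ≤ n - 1 := by omega
  obtain ⟨⟨t, ⟨a, ha⟩, ⟨b, hb⟩⟩, hab⟩ := β
  have hab' : a < b := hab
  cases t with
  | false =>
    rcases Nat.eq_or_lt_of_le hab' with h1 | h1
    · subst h1
      refine Or.inl ⟨⟨a, ha⟩, ?_, ?_⟩
      · funext j
        simp only [k2cR_dimF, Pi.single_apply, Fin.ext_iff]
        split_ifs <;> omega
      · rw [k2cR_vecF, k2cE_self_succ, k2cR_ext_lt f ha]
    · obtain ⟨e, rfl⟩ : ∃ e, b = e + 1 := ⟨b - 1, by omega⟩
      refine Or.inr ⟨⟨e, by omega⟩, ⟨(false, ⟨a, ha⟩, ⟨e, by omega⟩), (by omega : a < e)⟩, ?_,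
        Or.inr ?_⟩
      · funext j
        simp only [k2cR_dimF, Pi.add_apply, Pi.single_apply, Fin.ext_iff]
        split_ifs <;> omega
      · rw [k2cR_vecF, k2cR_vecF, k2cE_succ _ (by omega : a < e), ← k2cR_ext_lt f (by omega : e < n),
          lie_skew]
  | true =>
    obtain ⟨m, rfl⟩ : ∃ m, n = m + 2 := ⟨n - 2, by omega⟩
    have e1 : m + 2 - 1 = m + 1 := rfl
    rw [e1] at h hN
    by_cases hbN : b = m + 1
    · subst hbN
      rcases Nat.eq_or_lt_of_le (Nat.lt_succ_iff.1 hab') with h1 | h1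
      · subst h1
        refine Or.inl ⟨⟨a + 1, hb⟩, ?_, ?_⟩
        · funext j
          simp only [k2cR_dimT, Pi.single_apply, Fin.ext_iff]
          split_ifs <;> omega
        · rw [k2cR_vecT, e1, k2cD_lam_top, k2cD_E'_nn, k2cR_ext_lt f hb]
      · refine Or.inr ⟨⟨m + 1, hb⟩, ⟨(false, ⟨a, ha⟩, ⟨m, by omega⟩), h1⟩, ?_, Or.inr ?_⟩
        · funext j
          simp only [k2cR_dimT, k2cR_dimF, Pi.add_apply, Pi.single_apply, Fin.ext_iff]
          split_ifs <;> omega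
        · rw [k2cR_vecT, k2cR_vecF, e1, k2cD_lam_top, k2cD_E'_top _ _ h1, ← k2cR_ext_lt f hb, lie_skew]
    · refine Or.inr ⟨⟨b, hb⟩, ⟨(true, ⟨a, ha⟩, ⟨b + 1, by omega⟩), (by omega : a < b + 1)⟩, ?_,
        Or.inl ?_⟩
      · funext j
        simp only [k2cR_dimT, Pi.add_apply, Pi.single_apply, Fin.ext_iff]
        split_ifs <;> omega
      · rw [k2cR_vecT, k2cR_vecT, e1, ← k2cR_ext_lt f hb,
          k2c_tableD1 h2 hN h (by omega) (by omega : a < b + 1) (by omega), if_neg (by omega),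
          if_pos ⟨rfl, hab'⟩, zero_add]

end Claimed.Agent.R282
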