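import Claimed.Agent.R282.K2.C.Defs

/-!
# Row 282, K2, package C, leaf L-K2C-A: the bracket table of type `A` from the Serre relations

Any Lie ring `L` without 2-torsion.  `E(a,b) := k2cE x a b` (`a < b ≤ N`), `E(a,a+1) = x_a`,
`E(a,b+1) = [E(a,b), x_b]` (`k2cE_succ`).  PLAN (every step checked by hand, helper56):

GENERATOR TABLE `k2c_genA`:  for `c < N`, `a < b ≤ N`:
   `[x_c, E(a,b)] = (if c+1 = a then E(c,b) else 0) - (if b = c then E(a,c+1) else 0)`.
 1. `c + 1 < a` or `b < c`: zero, induction on `b` with `leibniz_lie` (`x_c` commutes with all `x_i`, `a ≤ i < b`).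
 2. `c = b`: definition (`lie_skew`).
 3. `c + 1 = a`: induction on `b`; `[x_c,[E(a,b),x_b]] = [[x_c,E(a,b)],x_b] + [E(a,b),[x_c,x_b]] = [E(c,b),x_b] + 0`.
 4. `c = a`: `b = a+1` `lie_self`; `b = a+2` `up`; then induction (`x_a` commutes with `x_(b-1)`, `b-1 ≥ a+2`).
 5. `c = b-1 > a`: `b = a+2`: `down` + `lie_skew`.  `b > a+2`: `u = E(a,b-2)` commutes with `r = x_(b-1)` (step 1), `p = x_(b-2)`:
    `[[u,p],r] = [u,[p,r]]`, `[r,[u,[p,r]]] = [u,[r,[p,r]]] = 0`.
 6. `a < c < b-1`: first `b = c+2` (the `A_3` step): `u = E(a,c)`, `p = x_c`, `r = x_(c+1)`, `[u,r] = 0`, `[p,[u,p]] = 0` (step 5),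
    `[p,[p,r]] = 0`:  `X = [p,[[u,p],r]] = [[u,p],[p,r]] = [u,[p,[p,r]]] - [p,[u,[p,r]]] = -[p,[[u,p],r]] = -X`, so `X = 0` by `h2`
    (isolated as the general lemma `k2c_a3`).  Then induction on `b`.
FULL TABLE `k2c_tableA`: induction on `b` (first argument), `[[E(a,b),x_b],E(c,d)] = [E(a,b),[x_b,E(c,d)]] - [x_b,[E(a,b),E(c,d)]]`,
 insert `k2c_genA` and the induction hypothesis, 5 cases (`b+1 = c`, `d = b`, `b = c`, `d = a`, none).
-/

set_option autoImplicit false

namespace Claimed.Agent.R282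

variable {L : Type*} [LieRing L]

theorem k2cE_self_succ (x : ℕ → L) (a : ℕ) : k2cE x a (a + 1) = x a := by
  simp [k2cE, k2cCh]

theorem k2cE_succ (x : ℕ → L) {a b : ℕ} (h : a < b) : k2cE x a (b + 1) = ⁅k2cE x a b, x b⁆ := by
  obtain ⟨k, rfl⟩ : ∃ k, b = a + k + 1 := ⟨b - a - 1, by omega⟩
  have h1 : a + k + 1 + 1 - a - 1 = k + 1 := by omega
  have h2 : a + k + 1 - a - 1 = k := by omega
  simp [k2cE, h1, h2, k2cCh]

/-- `k2cE x a b` only depends on `x_i`, `a ≤ i < b` -/
theorem k2cE_congr {x y : ℕ → L} {a b : ℕ} (hab : a < b) (h : ∀ i, a ≤ i → i < b → x i = y i) :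
    k2cE x a b = k2cE y a b := by
  induction b, hab using Nat.le_induction with
  | base => rw [k2cE_self_succ, k2cE_self_succ]; exact h a le_rfl (Nat.lt_succ_self a)
  | succ b hb ih =>
    rw [k2cE_succ x hb, k2cE_succ y hb, ih (fun i h1 h2 => h i h1 (by omega)),
      h b (by omega) (by omega)]

/-- the `A_3` step -/
theorem k2c_a3 (h2 : ∀ z : L, z + z = 0 → z = 0) (u p r : L) (hur : ⁅u, r⁆ = 0)
    (hpu : ⁅p, ⁅u, p⁆⁆ = 0) (hpr : ⁅p, ⁅p, r⁆⁆ = 0) : ⁅p, ⁅⁅u, p⁆, r⁆⁆ = 0 := by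
  have e1 : ⁅u, ⁅p, r⁆⁆ = ⁅⁅u, p⁆, r⁆ := by
    rw [leibniz_lie u p r, hur, lie_zero, add_zero]
  have e2 : ⁅p, ⁅⁅u, p⁆, r⁆⁆ = -⁅p, ⁅⁅u, p⁆, r⁆⁆ := by
    conv_lhs => rw [leibniz_lie p ⁅u, p⁆ r, hpu, zero_lie, zero_add, lie_lie u p ⁅p, r⁆, hpr,
      lie_zero, zero_sub, e1]
  refine h2 _ ?_
  nth_rewrite 1 [e2]
  exact neg_add_cancel _

/-- (A, auxiliary) the generators of a chain at distance `≥ 2` commute -/
theorem k2cA_far {x : ℕ → L} {N : ℕ} (hx : K2cChain x N) {i j : ℕ} (hi : i < N) (hj : j < N)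
    (h : i + 1 < j ∨ j + 1 < i) : ⁅x i, x j⁆ = 0 := by
  rcases h with h | h
  · exact hx.far i j h hj
  · rw [← lie_skew, hx.far j i h hi, neg_zero]

/-- (A, auxiliary) an element commuting with `x_i`, `a ≤ i < b`, commutes with `E(a,b)` -/
theorem k2cA_comm (x : ℕ → L) {a b : ℕ} (hab : a < b) (z : L)
    (h : ∀ i, a ≤ i → i < b → ⁅z, x i⁆ = 0) : ⁅z, k2cE x a b⁆ = 0 := by
  induction b, hab using Nat.le_induction with
  | base => rw [k2cE_self_succ]; exact h a le_rfl (Nat.lt_succ_self a)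
  | succ b hb ih =>
    rw [k2cE_succ x hb, leibniz_lie, ih (fun i h1 h2 => h i h1 (by omega)), zero_lie,
      h b (by omega) (by omega), lie_zero, add_zero]

/-- (A, step 1) -/
theorem k2cA_g1 {x : ℕ → L} {N : ℕ} (hx : K2cChain x N) {a b c : ℕ} (hc : c < N) (hab : a < b)
    (hb : b ≤ N) (h : c + 1 < a ∨ b < c) : ⁅x c, k2cE x a b⁆ = 0 :=
  k2cA_comm x hab _ fun i h1 h2 => k2cA_far hx hc (by omega) (by omega)

/-- (A, step 3) -/
theorem k2cA_g3 {x : ℕ → L} {N : ℕ} (hx : K2cChain x N) {b c : ℕ} (hab : c + 1 < b)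
    (hb : b ≤ N) : ⁅x c, k2cE x (c + 1) b⁆ = k2cE x c b := by
  induction b, hab using Nat.le_induction with
  | base => rw [k2cE_self_succ, k2cE_succ x (Nat.lt_succ_self c), k2cE_self_succ]
  | succ b hb' ih =>
    rw [k2cE_succ x hb', leibniz_lie, ih (by omega), hx.far c b (by omega) (by omega), lie_zero,
      add_zero, k2cE_succ x (by omega)]

/-- (A, step 4) -/
theorem k2cA_g4 {x : ℕ → L} {N : ℕ} (hx : K2cChain x N) {a b : ℕ} (hab : a < b)
    (hb : b ≤ N) : ⁅x a, k2cE x a b⁆ = 0 := by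
  induction b, hab using Nat.le_induction with
  | base => rw [k2cE_self_succ, lie_self]
  | succ b hb' ih =>
    rcases Nat.eq_or_lt_of_le hb' with h | h
    · subst h
      rw [k2cE_succ x (Nat.lt_succ_self a), k2cE_self_succ]
      exact hx.up a (by omega)
    · rw [k2cE_succ x hb', leibniz_lie, ih (by omega), zero_lie, hx.far a b (by omega) (by omega),
        lie_zero, add_zero]

/-- (A, step 5) -/
theorem k2cA_g5 {x : ℕ → L} {N : ℕ} (hx : K2cChain x N) {a c : ℕ} (hac : a < c)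
    (hc : c + 1 ≤ N) : ⁅x c, k2cE x a (c + 1)⁆ = 0 := by
  rw [k2cE_succ x hac]
  rcases Nat.eq_or_lt_of_le hac with h | h
  · subst h
    rw [k2cE_self_succ, ← lie_skew (x a) (x (a + 1)), lie_neg, hx.down a (by omega), neg_zero]
  · obtain ⟨e, rfl⟩ : ∃ e, c = e + 1 := ⟨c - 1, by omega⟩
    have hur : ⁅k2cE x a e, x (e + 1)⁆ = 0 := by
      rw [← lie_skew, k2cA_g1 hx (by omega) (by omega) (by omega) (Or.inr (by omega)), neg_zero]
    have hru : ⁅x (e + 1), k2cE x a e⁆ = 0 :=
      k2cA_g1 hx (by omega) (by omega) (by omega) (Or.inr (by omega))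
    have hrp : ⁅x (e + 1), ⁅x e, x (e + 1)⁆⁆ = 0 := by
      rw [← lie_skew (x e) (x (e + 1)), lie_neg, hx.down e (by omega), neg_zero]
    rw [k2cE_succ x (by omega), lie_lie (k2cE x a e) (x e) (x (e + 1)), hur, lie_zero, sub_zero,
      leibniz_lie, hru, zero_lie, hrp, lie_zero, add_zero]

/-- (A, step 6) -/
theorem k2cA_g6 (h2 : ∀ z : L, z + z = 0 → z = 0) {x : ℕ → L} {N : ℕ} (hx : K2cChain x N)
    {a b c : ℕ} (hac : a < c) (hcb : c + 2 ≤ b) (hb : b ≤ N) : ⁅x c, k2cE x a b⁆ = 0 := by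
  induction b, hcb using Nat.le_induction with
  | base =>
    rw [k2cE_succ x (by omega), k2cE_succ x hac]
    refine k2c_a3 h2 _ _ _ ?_ ?_ (hx.up c (by omega))
    · rw [← lie_skew, k2cA_g1 hx (by omega) hac (by omega) (Or.inr (by omega)), neg_zero]
    · rw [← k2cE_succ x hac]
      exact k2cA_g5 hx hac (by omega)
  | succ b hb' ih =>
    rw [k2cE_succ x (by omega), leibniz_lie, ih (by omega), zero_lie,
      hx.far c b (by omega) (by omega), lie_zero, add_zero]

/-- generator table of type `A` -/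
theorem k2c_genA (h2 : ∀ z : L, z + z = 0 → z = 0) {x : ℕ → L} {N : ℕ} (hx : K2cChain x N)
    {a b c : ℕ} (hc : c < N) (hab : a < b) (hb : b ≤ N) :
    ⁅x c, k2cE x a b⁆ = (if c + 1 = a then k2cE x c b else 0) - (if b = c then k2cE x a (c + 1) else 0) := by
  rcases lt_trichotomy (c + 1) a with h | h | h
  · rw [k2cA_g1 hx hc hab hb (Or.inl h), if_neg (by omega), if_neg (by omega), sub_zero]
  · subst h
    rw [k2cA_g3 hx hab hb, if_pos rfl, if_neg (by omega), sub_zero]
  · rw [if_neg (by omega), zero_sub]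
    rcases Nat.eq_or_lt_of_le (Nat.lt_succ_iff.1 h) with h1 | h1
    · subst h1
      rw [k2cA_g4 hx hab hb, if_neg (by omega), neg_zero]
    · rcases lt_trichotomy c b with h3 | h3 | h3
      · rw [if_neg (by omega), neg_zero]
        rcases Nat.eq_or_lt_of_le h3 with h4 | h4
        · subst h4
          exact k2cA_g5 hx h1 hb
        · exact k2cA_g6 h2 hx h1 h4 hb
      · subst h3
        rw [if_pos rfl, k2cE_succ x hab, lie_skew]
      · rw [k2cA_g1 hx hc hab hb (Or.inr h3), if_neg (by omega), neg_zero]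

/-- THEOREM A: the full bracket table of type `A` -/
theorem k2c_tableA (h2 : ∀ z : L, z + z = 0 → z = 0) {x : ℕ → L} {N : ℕ} (hx : K2cChain x N)
    {a b c d : ℕ} (hab : a < b) (hb : b ≤ N) (hcd : c < d) (hd : d ≤ N) :
    ⁅k2cE x a b, k2cE x c d⁆ = (if b = c then k2cE x a d else 0) - (if d = a then k2cE x c b else 0) := by
  induction b, hab using Nat.le_induction generalizing c d with
  | base =>
    rw [k2cE_self_succ]
    exact k2c_genA h2 hx (by omega) hcd hd
  | succ b hab' ih =>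
    have hab : a < b := hab'
    have hbN : b < N := by omega
    rw [k2cE_succ x hab, lie_lie, k2c_genA h2 hx hbN hcd hd, ih (by omega) hcd hd]
    by_cases h1 : b + 1 = c
    · subst h1
      rw [if_pos rfl, if_neg (by omega), if_neg (by omega), if_neg (by omega), if_pos rfl,
        if_neg (by omega), sub_zero, sub_zero, sub_zero, lie_zero, sub_zero,
        ih (by omega) (by omega) hd, if_pos rfl, if_neg (by omega), sub_zero]
    · rw [if_neg h1, if_neg h1, zero_sub, zero_sub]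
      by_cases h3 : d = b
      · subst h3
        rw [if_pos rfl, if_neg (by omega), if_neg (by omega), if_neg (by omega), sub_zero, lie_zero,
          sub_zero, neg_zero, lie_neg, ih (by omega) (by omega) hb, if_neg (by omega),
          if_neg (by omega), sub_zero, neg_zero]
      · rw [if_neg h3, neg_zero, lie_zero, zero_sub]
        by_cases h4 : b = c
        · subst h4
          rw [if_pos rfl, if_neg (by omega), if_neg (by omega), sub_zero, neg_zero,
            k2c_genA h2 hx hbN (by omega) hd, if_neg (by omega), if_neg (by omega), sub_zero,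
            neg_zero]
        · rw [if_neg h4, zero_sub]
          by_cases h5 : d = a
          · subst h5
            rw [if_pos rfl, if_pos rfl, lie_neg, k2c_genA h2 hx hbN (by omega) (by omega),
              if_neg (by omega), if_pos rfl, zero_sub, neg_neg]
          · rw [if_neg h5, if_neg h5, neg_zero, lie_zero, neg_zero]

end Claimed.Agent.R282
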