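import Claimed.Agent.R282.K2.C.TableA

/-!
# Row 282, K2, package C, leaf L-K2C-D: the generator tables of type `D` from the Serre relations

Any Lie ring `L` without 2-torsion, `h : K2cSysD f g N`, `1 ≤ N`.  Notation: `s = f_(N-1)`, `x' = Function.update f (N-1) g`,
`E(a,b) = k2cE f a b`, `E'(a,b) = k2cE x' a b` (`= E(a,b)` if `b < N`, by `k2cE_congr`; `E'(N-1,N) = g`),
`Λ(a,N) = E'(a,N)`, `Λ(a,b) = [E(b,N), Λ(a,N)]` for `a < b < N`  (`= k2cLam f g N a b`).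
USE `k2c_tableA` for BOTH chains `h.chain`, `h.chain'`.  All steps checked by hand (helper56); tables checked in `so(2n)`, n ≤ 7.

(A')  `[E(a,b), Λ(c,N)] = if b = c then Λ(a,N) else 0` (`a < b < N`, `c < N`);   `[Λ(a,N), Λ(c,N)] = 0`.     [tableA for x']
GENERAL LEMMAS (three letters, only Jacobi = `leibniz_lie`, `lie_skew`, `h2`):
 `k2c_fork`:  `[s,g] = 0`, `[u,[u,s]] = 0`, `[u,[u,g]] = 0`  ⇒  `[[u,s],[u,g]] = 0` and `[u,[s,[u,g]]] = 0`.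
     K := [s,[u,g]] = [[s,u],g] = [g,[u,s]];  Q := [[u,s],[u,g]] = [u,[s,[u,g]]] - [s,[u,[u,g]]] = [u,K];
     Q = -[[u,g],[u,s]] = -([u,[g,[u,s]]] - [g,[u,[u,s]]]) = -[u,K].   So Q + Q = 0.
 `k2c_l3`:    `[v,Y] = 0`, `[s,[s,Y]] = 0`, `[s,[v,s]] = 0`  ⇒  `[[v,s],[s,Y]] = 0`.
     W := [[v,s],[s,Y]] = [v,[s,[s,Y]]] - [s,[v,[s,Y]]] = -[s,[[v,s],Y]] = -([[s,[v,s]],Y] + W) = -W.
Z1  `[E(a,N), Λ(a,N)] = 0` (`a < N`):  `a = N-1`: `comm`.  Else `u = E(a,N-1)`, `E(a,N) = [u,s]`, `Λ(a,N) = [u,g]`, `k2c_fork`.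
Z2  `[E(b,N), Λ(a,N-1)] = 0` (`a < b < N`):  `Y = Λ(a,N) = [u,g]`, `u = E(a,N-1)`, `Λ(a,N-1) = [s,Y]`.
     `[s,[s,Y]] = 0`: `[s,[u,g]] = [[s,u],g]`, `[s,[[s,u],g]] = [[s,[s,u]],g] = 0` (`[s,E(a,N)] = 0` by tableA).  This is `b = N-1`.
     `b < N-1`: `v = E(b,N-1)`, `E(b,N) = [v,s]`, `[v,Y] = 0` by (A'), `[s,[v,s]] = 0` by tableA; `k2c_l3`.
Z4  `[Λ(b,N-1), Λ(b,N)] = 0` (`b < N-1`): `u = E(b,N-1)`, `K = [s,[u,g]] = Λ(b,N-1)`; `[u,K] = 0` (fork), `[g,K] = [g,[[g,u],s]]·(±) = 0`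
     since `[g,[g,u]] = 0` (tableA for x'); so `K` commutes with `[u,g]`.
Z3  `[Λ(b,N-1), Λ(a,N)] = 0` (`a < b < N-1`): `W(b,a) := [Λ(b,N-1),Λ(a,N)] = [s,[Λ(b,N),Λ(a,N)]] - [Λ(b,N),[s,Λ(a,N)]] = W(a,b)`;
     `Λ(a,N) = [E(a,b),Λ(b,N)]`, `[E(a,b),Λ(b,N-1)] = Λ(a,N-1)` (`E(a,b)` commutes with `s`), so
     `W(b,a) = [[Λ(b,N-1),E(a,b)],Λ(b,N)] + [E(a,b),Z4] = -W(a,b)`.   So `W + W = 0`.
D3  `b < N`: tableA for x' with `g = E'(N-1,N)`.  `b = N`, `a = N-1`: `comm`.  `b = N`, `a < N-1`: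
     `[g,[E(a,N-1),s]] = [[g,E(a,N-1)],s] = [-Λ(a,N),s] = [s,Λ(a,N)] = Λ(a,N-1)`.
D1  `b = N`: `c < N-1`: (A') with `f_c = E(c,c+1)`;  `c = N-1`: definition of `Λ(a,N-1)` resp. `comm`.
    `b < N`: `[f_c,[E(b,N),Λ(a,N)]] = [[f_c,E(b,N)],Λ(a,N)] + [E(b,N),[f_c,Λ(a,N)]]`
       `= [c+1=b] [E(c,N),Λ(a,N)] + [c+1=a] [E(b,N),Λ(c,N)] + [c=N-1] [E(b,N),Λ(a,N-1)]`;  use Z1 (if `a = c`), the definition, Z2.
D2  `b = N`: tableA for x'.  `b < N`: `[g,[E(b,N),Λ(a,N)]] = [[g,E(b,N)],Λ(a,N)] = [b+1<N] [Λ(b,N-1),Λ(a,N)] = 0` by D3, Z3.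
-/

set_option autoImplicit false

namespace Claimed.Agent.R282

variable {L : Type*} [LieRing L]

theorem k2c_fork (h2 : ∀ z : L, z + z = 0 → z = 0) (u s g : L) (hsg : ⁅s, g⁆ = 0)
    (hus : ⁅u, ⁅u, s⁆⁆ = 0) (hug : ⁅u, ⁅u, g⁆⁆ = 0) :
    ⁅⁅u, s⁆, ⁅u, g⁆⁆ = 0 ∧ ⁅u, ⁅s, ⁅u, g⁆⁆⁆ = 0 := by
  have hgs : ⁅g, s⁆ = 0 := by rw [← lie_skew, hsg, neg_zero]
  -- `K = [s,[u,g]] = [g,[u,s]]`
  have eK : ⁅s, ⁅u, g⁆⁆ = ⁅g, ⁅u, s⁆⁆ := by
    rw [leibniz_lie s u g, hsg, lie_zero, add_zero, ← lie_skew ⁅s, u⁆ g, ← lie_skew s u, lie_neg,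
      neg_neg]
  have e1 : ⁅⁅u, s⁆, ⁅u, g⁆⁆ = ⁅u, ⁅s, ⁅u, g⁆⁆⁆ := by
    rw [lie_lie u s ⁅u, g⁆, hug, lie_zero, sub_zero]
  have e2 : ⁅⁅u, s⁆, ⁅u, g⁆⁆ = -⁅u, ⁅s, ⁅u, g⁆⁆⁆ := by
    rw [← lie_skew ⁅u, s⁆ ⁅u, g⁆, lie_lie u g ⁅u, s⁆, hus, lie_zero, sub_zero, eK]
  have h0 : ⁅⁅u, s⁆, ⁅u, g⁆⁆ = 0 := by
    refine h2 _ ?_
    nth_rewrite 1 [e1]
    rw [e2]
    exact add_neg_cancel _
  exact ⟨h0, by rw [← e1, h0]⟩

theorem k2c_l3 (h2 : ∀ z : L, z + z = 0 → z = 0) (v s Y : L) (hvY : ⁅v, Y⁆ = 0)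
    (hsY : ⁅s, ⁅s, Y⁆⁆ = 0) (hsv : ⁅s, ⁅v, s⁆⁆ = 0) : ⁅⁅v, s⁆, ⁅s, Y⁆⁆ = 0 := by
  have e1 : ⁅v, ⁅s, Y⁆⁆ = ⁅⁅v, s⁆, Y⁆ := by
    rw [leibniz_lie v s Y, hvY, lie_zero, add_zero]
  have e2 : ⁅s, ⁅⁅v, s⁆, Y⁆⁆ = ⁅⁅v, s⁆, ⁅s, Y⁆⁆ := by
    rw [leibniz_lie s ⁅v, s⁆ Y, hsv, zero_lie, zero_add]
  have e3 : ⁅⁅v, s⁆, ⁅s, Y⁆⁆ = -⁅⁅v, s⁆, ⁅s, Y⁆⁆ := by
    conv_lhs => rw [lie_lie v s ⁅s, Y⁆, hsY, lie_zero, zero_sub, e1, e2]
  refine h2 _ ?_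
  nth_rewrite 1 [e3]
  exact neg_add_cancel _

/-! ### auxiliary lemmas (`N = n + 1`, `x' = Function.update f n g`) -/

theorem k2cD_E' (f : ℕ → L) (g : L) {n a b : ℕ} (hab : a < b) (hb : b ≤ n) :
    k2cE (Function.update f n g) a b = k2cE f a b :=
  k2cE_congr hab fun i _ h2 => Function.update_of_ne (by omega) _ _

theorem k2cD_E'_top (f : ℕ → L) (g : L) {n a : ℕ} (ha : a < n) :
    k2cE (Function.update f n g) a (n + 1) = ⁅k2cE f a n, g⁆ := by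
  rw [k2cE_succ _ ha, k2cD_E' f g ha le_rfl, Function.update_self]

theorem k2cD_E'_nn (f : ℕ → L) (g : L) (n : ℕ) : k2cE (Function.update f n g) n (n + 1) = g := by
  rw [k2cE_self_succ, Function.update_self]

theorem k2cD_lam_top (f : ℕ → L) (g : L) (n a : ℕ) :
    k2cLam f g (n + 1) a (n + 1) = k2cE (Function.update f n g) a (n + 1) := by
  unfold k2cLam
  rw [if_pos rfl]
  simp only [Nat.add_sub_cancel]

theorem k2cD_lam_lt (f : ℕ → L) (g : L) {n b : ℕ} (hb : b ≤ n) (a : ℕ) :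
    k2cLam f g (n + 1) a b = ⁅k2cE f b (n + 1), k2cE (Function.update f n g) a (n + 1)⁆ := by
  unfold k2cLam
  rw [if_neg (by omega)]
  simp only [Nat.add_sub_cancel]

section Aux
variable {f : ℕ → L} {g : L} {n : ℕ}

/-- (A') -/
theorem k2cD_A' (h2 : ∀ z : L, z + z = 0 → z = 0) (hx : K2cChain (Function.update f n g) (n + 1))
    {a b c : ℕ} (hab : a < b) (hb : b ≤ n) (hc : c ≤ n) :
    ⁅k2cE f a b, k2cE (Function.update f n g) c (n + 1)⁆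
      = if b = c then k2cE (Function.update f n g) a (n + 1) else 0 := by
  rw [← k2cD_E' f g hab hb, k2c_tableA h2 hx hab (by omega) (by omega) le_rfl,
    if_neg (by omega : ¬ n + 1 = a), sub_zero]

theorem k2cD_YY (h2 : ∀ z : L, z + z = 0 → z = 0) (hx : K2cChain (Function.update f n g) (n + 1))
    {a c : ℕ} (ha : a ≤ n) (hc : c ≤ n) :
    ⁅k2cE (Function.update f n g) a (n + 1), k2cE (Function.update f n g) c (n + 1)⁆ = 0 := by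
  rw [k2c_tableA h2 hx (by omega) le_rfl (by omega) le_rfl, if_neg (by omega), if_neg (by omega),
    sub_zero]

/-- `[s, E(a,N)] = 0` -/
theorem k2cD_sE (h2 : ∀ z : L, z + z = 0 → z = 0) (hf : K2cChain f (n + 1)) {a : ℕ} (ha : a ≤ n) :
    ⁅f n, k2cE f a (n + 1)⁆ = 0 := by
  rw [k2c_genA h2 hf (by omega) (by omega) le_rfl, if_neg (by omega), if_neg (by omega), sub_zero]

/-- `[g, Λ(a,N)] = 0` -/
theorem k2cD_gY (h2 : ∀ z : L, z + z = 0 → z = 0) (hx : K2cChain (Function.update f n g) (n + 1))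
    {a : ℕ} (ha : a ≤ n) : ⁅g, k2cE (Function.update f n g) a (n + 1)⁆ = 0 := by
  have h := k2c_genA h2 hx (c := n) (a := a) (b := n + 1) (by omega) (by omega) le_rfl
  rw [Function.update_self, if_neg (by omega), if_neg (by omega), sub_zero] at h
  exact h

theorem k2cD_uus (h2 : ∀ z : L, z + z = 0 → z = 0) (hf : K2cChain f (n + 1)) {a : ℕ} (ha : a < n) :
    ⁅k2cE f a n, ⁅k2cE f a n, f n⁆⁆ = 0 := by
  rw [← k2cE_succ f ha, k2c_tableA h2 hf ha (by omega) (by omega) le_rfl, if_neg (by omega),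
    if_neg (by omega), sub_zero]

theorem k2cD_uug (h2 : ∀ z : L, z + z = 0 → z = 0) (hx : K2cChain (Function.update f n g) (n + 1))
    {a : ℕ} (ha : a < n) : ⁅k2cE f a n, ⁅k2cE f a n, g⁆⁆ = 0 := by
  rw [← k2cD_E'_top f g ha, k2cD_A' h2 hx ha le_rfl (by omega), if_neg (by omega)]

/-- Z1 -/
theorem k2cD_Z1 (h2 : ∀ z : L, z + z = 0 → z = 0) (hf : K2cChain f (n + 1))
    (hx : K2cChain (Function.update f n g) (n + 1)) (hsg : ⁅f n, g⁆ = 0) {a : ℕ} (ha : a ≤ n) :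
    ⁅k2cE f a (n + 1), k2cE (Function.update f n g) a (n + 1)⁆ = 0 := by
  rcases Nat.eq_or_lt_of_le ha with h | h
  · subst h
    rw [k2cE_self_succ, k2cD_E'_nn]
    exact hsg
  · rw [k2cE_succ f h, k2cD_E'_top f g h]
    exact (k2c_fork h2 _ _ _ hsg (k2cD_uus h2 hf h) (k2cD_uug h2 hx h)).1

/-- `[s,[s,Λ(a,N)]] = 0` -/
theorem k2cD_ssY (h2 : ∀ z : L, z + z = 0 → z = 0) (hf : K2cChain f (n + 1)) (hsg : ⁅f n, g⁆ = 0)
    {a : ℕ} (ha : a < n) : ⁅f n, ⁅f n, k2cE (Function.update f n g) a (n + 1)⁆⁆ = 0 := by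
  have e0 : ⁅f n, ⁅f n, k2cE f a n⁆⁆ = 0 := by
    rw [← lie_skew (f n) (k2cE f a n), lie_neg, ← k2cE_succ f ha, k2cD_sE h2 hf ha.le, neg_zero]
  rw [k2cD_E'_top f g ha, leibniz_lie (f n) (k2cE f a n) g, hsg, lie_zero, add_zero,
    leibniz_lie (f n) ⁅f n, k2cE f a n⁆ g, e0, zero_lie, hsg, lie_zero, add_zero]

/-- Z2 -/
theorem k2cD_Z2 (h2 : ∀ z : L, z + z = 0 → z = 0) (hf : K2cChain f (n + 1))
    (hx : K2cChain (Function.update f n g) (n + 1)) (hsg : ⁅f n, g⁆ = 0) {a b : ℕ} (hab : a < b)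
    (hb : b ≤ n) :
    ⁅k2cE f b (n + 1), ⁅f n, k2cE (Function.update f n g) a (n + 1)⁆⁆ = 0 := by
  have ha : a < n := by omega
  rcases Nat.eq_or_lt_of_le hb with h | h
  · subst h
    rw [k2cE_self_succ]
    exact k2cD_ssY h2 hf hsg ha
  · rw [k2cE_succ f h]
    refine k2c_l3 h2 _ _ _ ?_ (k2cD_ssY h2 hf hsg ha) ?_
    · rw [k2cD_A' h2 hx h le_rfl (by omega), if_neg (by omega)]
    · rw [← k2cE_succ f h]
      exact k2cD_sE h2 hf hb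

/-- Z4 -/
theorem k2cD_Z4 (h2 : ∀ z : L, z + z = 0 → z = 0) (hf : K2cChain f (n + 1))
    (hx : K2cChain (Function.update f n g) (n + 1)) (hsg : ⁅f n, g⁆ = 0) {b : ℕ} (hb : b < n) :
    ⁅⁅f n, k2cE (Function.update f n g) b (n + 1)⁆, k2cE (Function.update f n g) b (n + 1)⁆ = 0 := by
  have hgs : ⁅g, f n⁆ = 0 := by rw [← lie_skew, hsg, neg_zero]
  have hY := k2cD_E'_top f g hb
  -- `[u, K] = 0`
  have huK : ⁅k2cE f b n, ⁅f n, ⁅k2cE f b n, g⁆⁆⁆ = 0 :=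
    (k2c_fork h2 _ _ _ hsg (k2cD_uus h2 hf hb) (k2cD_uug h2 hx hb)).2
  -- `[g, K] = 0`
  have hgK : ⁅g, ⁅f n, ⁅k2cE f b n, g⁆⁆⁆ = 0 := by
    rw [leibniz_lie g (f n) ⁅k2cE f b n, g⁆, hgs, zero_lie, zero_add, ← hY, k2cD_gY h2 hx hb.le,
      lie_zero]
  rw [hY, ← lie_skew, lie_lie (k2cE f b n) g, hgK, huK, lie_zero, lie_zero, sub_zero, neg_zero]

/-- Z3 -/
theorem k2cD_Z3 (h2 : ∀ z : L, z + z = 0 → z = 0) (hf : K2cChain f (n + 1))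
    (hx : K2cChain (Function.update f n g) (n + 1)) (hsg : ⁅f n, g⁆ = 0) {a b : ℕ} (hab : a < b)
    (hb : b < n) :
    ⁅⁅f n, k2cE (Function.update f n g) b (n + 1)⁆, k2cE (Function.update f n g) a (n + 1)⁆ = 0 := by
  obtain ⟨Ya, hYa⟩ : ∃ Y, Y = k2cE (Function.update f n g) a (n + 1) := ⟨_, rfl⟩
  obtain ⟨Yb, hYb⟩ : ∃ Y, Y = k2cE (Function.update f n g) b (n + 1) := ⟨_, rfl⟩
  have hYY : ⁅Yb, Ya⁆ = 0 := by rw [hYa, hYb]; exact k2cD_YY h2 hx (by omega) (by omega)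
  have hEY : ⁅k2cE f a b, Yb⁆ = Ya := by
    rw [hYa, hYb, k2cD_A' h2 hx hab (by omega) (by omega), if_pos rfl]
  have hsE : ⁅k2cE f a b, f n⁆ = 0 := by
    rw [← lie_skew, k2c_genA h2 hf (by omega) hab (by omega), if_neg (by omega), if_neg (by omega),
      sub_zero, neg_zero]
  have hZ4 : ⁅⁅f n, Yb⁆, Yb⁆ = 0 := by rw [hYb]; exact k2cD_Z4 h2 hf hx hsg hb
  rw [← hYa, ← hYb]
  -- `W(b,a) = W(a,b)`
  have e1 : ⁅⁅f n, Yb⁆, Ya⁆ = ⁅⁅f n, Ya⁆, Yb⁆ := by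
    rw [lie_lie (f n) Yb Ya, hYY, lie_zero, zero_sub, lie_skew]
  -- `[E(a,b), Λ(b,n)] = Λ(a,n)`
  have e2 : ⁅k2cE f a b, ⁅f n, Yb⁆⁆ = ⁅f n, Ya⁆ := by
    rw [leibniz_lie (k2cE f a b) (f n) Yb, hsE, zero_lie, zero_add, hEY]
  -- `W(b,a) = -W(a,b)`
  have e3 : ⁅⁅f n, Yb⁆, Ya⁆ = -⁅⁅f n, Ya⁆, Yb⁆ := by
    conv_lhs => rw [← hEY, leibniz_lie ⁅f n, Yb⁆ (k2cE f a b) Yb, hZ4, lie_zero, add_zero,
      ← lie_skew ⁅f n, Yb⁆ (k2cE f a b), e2, neg_lie]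
  refine h2 _ ?_
  nth_rewrite 1 [e3]
  rw [e1]
  exact neg_add_cancel _

/-- D3 for `N = n + 1` -/
theorem k2cD_D3 (h2 : ∀ z : L, z + z = 0 → z = 0) (hf : K2cChain f (n + 1))
    (hx : K2cChain (Function.update f n g) (n + 1)) (hsg : ⁅f n, g⁆ = 0) {a b : ℕ} (hab : a < b)
    (hb : b ≤ n + 1) :
    ⁅g, k2cE f a b⁆ = (if b = n + 1 ∧ a < n then
        ⁅f n, k2cE (Function.update f n g) a (n + 1)⁆ else 0)
      - (if b = n then k2cE (Function.update f n g) a (n + 1) else 0) := by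
  have hgs : ⁅g, f n⁆ = 0 := by rw [← lie_skew, hsg, neg_zero]
  rcases Nat.eq_or_lt_of_le hb with h | h
  · subst h
    rw [if_neg (by omega : ¬ n + 1 = n), sub_zero]
    rcases Nat.eq_or_lt_of_le (Nat.lt_succ_iff.1 hab) with h1 | h1
    · subst h1
      rw [k2cE_self_succ, hgs, if_neg (by omega)]
    · rw [if_pos ⟨rfl, h1⟩, k2cE_succ f h1, leibniz_lie g (k2cE f a n) (f n), hgs, lie_zero, add_zero,
        k2cD_E'_top f g h1, ← lie_skew g (k2cE f a n), neg_lie, lie_skew]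
  · have h3 := k2c_genA h2 hx (c := n) (a := a) (b := b) (by omega) hab (by omega)
    rw [Function.update_self, k2cD_E' f g hab (by omega), if_neg (by omega), zero_sub] at h3
    rw [h3, if_neg (by omega : ¬ (b = n + 1 ∧ a < n)), zero_sub]

/-- D1 for `N = n + 1`, `b = N` -/
theorem k2cD_D1top (h2 : ∀ z : L, z + z = 0 → z = 0)
    (hx : K2cChain (Function.update f n g) (n + 1)) (hsg : ⁅f n, g⁆ = 0) {a c : ℕ} (hc : c ≤ n)
    (ha : a ≤ n) :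
    ⁅f c, k2cE (Function.update f n g) a (n + 1)⁆
      = (if c + 1 = a then k2cE (Function.update f n g) c (n + 1) else 0)
        + (if c = n ∧ a < n then ⁅f n, k2cE (Function.update f n g) a (n + 1)⁆ else 0) := by
  rcases Nat.eq_or_lt_of_le hc with h | h
  · subst h
    rw [if_neg (by omega), zero_add]
    rcases Nat.eq_or_lt_of_le ha with h1 | h1
    · subst h1
      rw [k2cD_E'_nn, hsg, if_neg (by omega)]
    · rw [if_pos ⟨rfl, h1⟩]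
  · have h3 := k2c_genA h2 hx (c := c) (a := a) (b := n + 1) (by omega) (by omega) le_rfl
    rw [Function.update_of_ne (by omega), if_neg (by omega : ¬ n + 1 = c), sub_zero] at h3
    rw [h3, if_neg (by omega : ¬ (c = n ∧ a < n)), add_zero]

end Aux

/-- (D1) -/
theorem k2c_tableD1 (h2 : ∀ z : L, z + z = 0 → z = 0) {f : ℕ → L} {g : L} {N : ℕ} (hN : 1 ≤ N)
    (h : K2cSysD f g N) {a b c : ℕ} (hc : c < N) (hab : a < b) (hb : b ≤ N) :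
    ⁅f c, k2cLam f g N a b⁆ = (if c + 1 = a then k2cLam f g N c b else 0)
      + (if c + 1 = b ∧ a < c then k2cLam f g N a c else 0) := by
  obtain ⟨n, rfl⟩ : ∃ n, N = n + 1 := ⟨N - 1, by omega⟩
  have hf := h.chain
  have hx := h.chain'
  have hsg := h.comm
  simp only [Nat.add_sub_cancel] at hx hsg
  rcases Nat.eq_or_lt_of_le hb with h1 | h1
  · subst h1
    rw [k2cD_lam_top, k2cD_D1top h2 hx hsg (by omega) (by omega), k2cD_lam_top]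
    congr 1
    by_cases h3 : c = n ∧ a < n
    · obtain ⟨rfl, h4⟩ := h3
      rw [if_pos ⟨rfl, h4⟩, if_pos ⟨rfl, h4⟩, k2cD_lam_lt f g le_rfl, k2cE_self_succ]
    · rw [if_neg h3, if_neg (by omega)]
  · have hbn : b ≤ n := by omega
    rw [k2cD_lam_lt f g hbn, leibniz_lie, k2c_genA h2 hf hc (by omega) le_rfl,
      if_neg (by omega : ¬ n + 1 = c), sub_zero, k2cD_D1top h2 hx hsg (by omega) (by omega)]
    by_cases h3 : c + 1 = b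
    · subst h3
      rw [if_pos rfl, if_neg (by omega), if_neg (by omega), add_zero, lie_zero, add_zero,
        if_neg (by omega), zero_add]
      by_cases h4 : a < c
      · rw [if_pos ⟨rfl, h4⟩, k2cD_lam_lt f g (by omega)]
      · have h5 : a = c := by omega
        subst h5
        rw [if_neg (by omega)]
        exact k2cD_Z1 h2 hf hx hsg (by omega)
    · rw [if_neg h3, zero_lie, zero_add, if_neg (by omega : ¬ (c + 1 = b ∧ a < c)), add_zero]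
      by_cases h4 : c + 1 = a
      · subst h4
        rw [if_pos rfl, if_pos rfl, if_neg (by omega), add_zero, k2cD_lam_lt f g hbn]
      · rw [if_neg h4, if_neg h4, zero_add]
        by_cases h5 : c = n
        · subst h5
          rw [if_pos ⟨rfl, by omega⟩]
          exact k2cD_Z2 h2 hf hx hsg hab hbn
        · rw [if_neg (by omega), lie_zero]

/-- (D2) -/
theorem k2c_tableD2 (h2 : ∀ z : L, z + z = 0 → z = 0) {f : ℕ → L} {g : L} {N : ℕ} (hN : 1 ≤ N)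
    (h : K2cSysD f g N) {a b : ℕ} (hab : a < b) (hb : b ≤ N) :
    ⁅g, k2cLam f g N a b⁆ = 0 := by
  obtain ⟨n, rfl⟩ : ∃ n, N = n + 1 := ⟨N - 1, by omega⟩
  have hf := h.chain
  have hx := h.chain'
  have hsg := h.comm
  simp only [Nat.add_sub_cancel] at hx hsg
  rcases Nat.eq_or_lt_of_le hb with h1 | h1
  · subst h1
    rw [k2cD_lam_top]
    exact k2cD_gY h2 hx (by omega)
  · rw [k2cD_lam_lt f g (by omega), leibniz_lie, k2cD_gY h2 hx (by omega), lie_zero, add_zero,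
      k2cD_D3 h2 hf hx hsg (by omega) le_rfl, if_neg (by omega : ¬ n + 1 = n), sub_zero]
    by_cases h3 : b < n
    · rw [if_pos ⟨rfl, h3⟩]
      exact k2cD_Z3 h2 hf hx hsg hab h3
    · rw [if_neg (by omega), zero_lie]

/-- (D3) -/
theorem k2c_tableD3 (h2 : ∀ z : L, z + z = 0 → z = 0) {f : ℕ → L} {g : L} {N : ℕ} (hN : 1 ≤ N)
    (h : K2cSysD f g N) {a b : ℕ} (hab : a < b) (hb : b ≤ N) :
    ⁅g, k2cE f a b⁆ = (if b = N ∧ a + 1 < N then k2cLam f g N a (N - 1) else 0)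
      - (if b + 1 = N then k2cLam f g N a N else 0) := by
  obtain ⟨n, rfl⟩ : ∃ n, N = n + 1 := ⟨N - 1, by omega⟩
  have hf := h.chain
  have hx := h.chain'
  have hsg := h.comm
  simp only [Nat.add_sub_cancel] at hx hsg ⊢
  rw [k2cD_D3 h2 hf hx hsg hab hb, k2cD_lam_top, k2cD_lam_lt f g le_rfl, k2cE_self_succ]
  congr 1
  · by_cases h1 : b = n + 1 ∧ a < n
    · rw [if_pos h1, if_pos ⟨h1.1, by omega⟩]
    · rw [if_neg h1, if_neg (by omega)]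
  · by_cases h1 : b = n
    · rw [if_pos h1, if_pos (by omega)]
    · rw [if_neg h1, if_neg (by omega)]

end Claimed.Agent.R282
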